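import Mathlib
/-
P371 lifting, sign lemma, part 1: the lattice flags of (product of boundaries of cubes) x cube, up to row signs.
A lattice point is the centre of a cell: odd coordinates are the free ones. A flag frees one coordinate per step.
In every flag the top cell is the representative with all extreme row coordinates positive.
-/
namespace Vale.Agent.P371.Lift.Sign

open Finset

/-- coordinates: the entries of an `n x n` matrix (only the lower triangle moves) and `n` cube coordinates -/
abbrev Crd (n : ℕ) : Type := (Fin n × Fin n) ⊕ Fin n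

/-- lattice points -/
abbrev Pt (n : ℕ) : Type := Crd n → ℤ

/-- equations: one per strictly lower entry and one per cube coordinate -/
abbrev Slot (n : ℕ) : Type := {p : Fin n × Fin n // p.2 < p.1} ⊕ Fin n

/-- the dimension -/
def dd (n : ℕ) : ℕ := Fintype.card (Slot n)

/-- the chosen numbering of the equations -/
noncomputable def slot (n : ℕ) : Fin (dd n) ≃ Slot n := (Fintype.equivFin (Slot n)).symm

variable {n : ℕ}

/-- the extreme value of a row coordinate -/
def mm (K : ℕ) : ℤ := 2 * ((K : ℤ) + 1)

lemma two_le_mm (K : ℕ) : 2 ≤ mm K := by unfold mm; omega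

lemma even_mm (K : ℕ) : Even (mm K) := ⟨(K : ℤ) + 1, by unfold mm; ring⟩

/-- lower end of a coordinate range -/
def lo (K : ℕ) : Crd n → ℤ
  | Sum.inl p => if p.1 < p.2 then 0 else -mm K
  | Sum.inr _ => 0

/-- upper end of a coordinate range -/
def hi (K : ℕ) : Crd n → ℤ
  | Sum.inl p => if p.1 < p.2 then 0 else mm K
  | Sum.inr _ => 2 * mm K

lemma even_lo (K : ℕ) (c : Crd n) : Even (lo K c) := by
  rcases c with p | q
  · by_cases h : p.1 < p.2 <;> simp [lo, h, even_mm]
  · simp [lo]

lemma even_hi (K : ℕ) (c : Crd n) : Even (hi K c) := by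
  rcases c with p | q
  · by_cases h : p.1 < p.2 <;> simp [hi, h, even_mm]
  · simp [hi]

/-- points of (product of cube boundaries) x cube -/
def IsPt (K : ℕ) (v : Pt n) : Prop :=
  (∀ c, lo K c ≤ v c ∧ v c ≤ hi K c) ∧
    ∀ i, ∃ j, j ≤ i ∧ (v (Sum.inl (i, j)) = mm K ∨ v (Sum.inl (i, j)) = -mm K)

/-- one even coordinate moves to a neighbouring odd value -/
def Step (u v : Pt n) : Prop :=
  ∃ c, Even (u c) ∧ (v c = u c + 1 ∨ v c = u c - 1) ∧ ∀ c', c' ≠ c → v c' = u c'

/-- flags: from a vertex to a top cell whose extreme row coordinates are positive -/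
def IsFlag (K : ℕ) (v : Fin (dd n + 1) → Pt n) : Prop :=
  (∀ k, IsPt K (v k)) ∧ (∀ c, Even (v 0 c)) ∧ (∀ k : Fin (dd n), Step (v k.castSucc) (v k.succ)) ∧
    ∀ i j, v (Fin.last (dd n)) (Sum.inl (i, j)) ≠ -mm K

open scoped Classical in
/-- the finite set of all flags -/
noncomputable def flags (n K : ℕ) : Finset (Fin (dd n + 1) → Pt n) :=
  (Fintype.piFinset fun _ : Fin (dd n + 1) => Fintype.piFinset fun c : Crd n => Icc (lo K c) (hi K c)).filter
    (IsFlag K)

lemma mem_flags {K : ℕ} {v : Fin (dd n + 1) → Pt n} : v ∈ flags n K ↔ IsFlag K v := by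
  classical
  refine ⟨fun h => (Finset.mem_filter.1 h).2, fun h => Finset.mem_filter.2 ⟨?_, h⟩⟩
  simp only [Fintype.mem_piFinset, Finset.mem_Icc]
  exact fun k c => (h.1 k).1 c

/-- negate one row -/
def flipP (i : Fin n) (v : Pt n) : Pt n
  | Sum.inl p => if p.1 = i then -v (Sum.inl p) else v (Sum.inl p)
  | Sum.inr q => v (Sum.inr q)

lemma flipP_flipP (i : Fin n) (v : Pt n) : flipP i (flipP i v) = v := by
  funext c
  rcases c with p | q
  · simp only [flipP]; split_ifs <;> simp
  · rfl

lemma isPt_flipP {K : ℕ} {v : Pt n} (i : Fin n) (h : IsPt K v) : IsPt K (flipP i v) := by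
  refine ⟨fun c => ?_, fun r => ?_⟩
  · rcases c with p | q
    · have := h.1 (Sum.inl p)
      simp only [flipP, lo, hi] at *
      split_ifs at * <;> omega
    · exact h.1 (Sum.inr q)
  · obtain ⟨j, hj, he⟩ := h.2 r
    refine ⟨j, hj, ?_⟩
    simp only [flipP]
    split_ifs <;> omega

lemma step_flipP {u v : Pt n} (i : Fin n) (h : Step u v) : Step (flipP i u) (flipP i v) := by
  obtain ⟨c, he, hc, ho⟩ := h
  refine ⟨c, ?_, ?_, fun c' hc' => ?_⟩
  · rcases c with p | q
    · simp only [flipP]; split_ifs
      · exact he.neg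
      · exact he
    · exact he
  · rcases c with p | q
    · simp only [flipP]; split_ifs <;> omega
    · exact hc
  · rcases c' with p | q
    · simp only [flipP, ho _ hc']
    · exact ho _ hc'

/- basic facts on flags -/

lemma odd_of_step {u v : Pt n} {c : Crd n} (he : Even (u c)) (hv : v c = u c + 1 ∨ v c = u c - 1) :
    Odd (v c) := by
  obtain ⟨k, hk⟩ := he
  rcases hv with h | h
  · exact ⟨k, by omega⟩
  · exact ⟨k - 1, by omega⟩

/-- the coordinate moved at step `k` -/
noncomputable def moved {K : ℕ} {v : Fin (dd n + 1) → Pt n} (h : IsFlag K v) (k : Fin (dd n)) : Crd n :=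
  (h.2.2.1 k).choose

variable {K : ℕ} {v : Fin (dd n + 1) → Pt n}

lemma moved_spec (h : IsFlag K v) (k : Fin (dd n)) :
    Even (v k.castSucc (moved h k)) ∧
      (v k.succ (moved h k) = v k.castSucc (moved h k) + 1 ∨
        v k.succ (moved h k) = v k.castSucc (moved h k) - 1) ∧
      ∀ c', c' ≠ moved h k → v k.succ c' = v k.castSucc c' :=
  (h.2.2.1 k).choose_spec

lemma moved_unique (h : IsFlag K v) (k : Fin (dd n)) {c : Crd n} (hc : v k.succ c ≠ v k.castSucc c) :
    c = moved h k := by
  by_contra hne
  exact hc ((moved_spec h k).2.2 c hne)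

lemma moved_ne (h : IsFlag K v) (k : Fin (dd n)) : v k.succ (moved h k) ≠ v k.castSucc (moved h k) := by
  have := (moved_spec h k).2.1
  omega

/-- an odd coordinate stays -/
lemma stay (h : IsFlag K v) {k l : Fin (dd n + 1)} (hkl : k ≤ l) {c : Crd n} (ho : Odd (v k c)) :
    v l c = v k c := by
  induction l using Fin.induction with
  | zero =>
    have : k = 0 := le_antisymm hkl (Fin.zero_le k)
    rw [this]
  | succ m ih =>
    rcases eq_or_lt_of_le hkl with he | hlt
    · rw [he]
    · have hm : k ≤ m.castSucc := Fin.le_castSucc_iff.2 hlt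
      have e := ih hm
      rw [← e]
      by_contra hne
      have hc := moved_unique h m hne
      have := (moved_spec h m).1
      rw [← hc, e] at this
      exact (Int.not_even_iff_odd.2 ho) this

/-- an even coordinate has not moved yet -/
lemma back (h : IsFlag K v) {k l : Fin (dd n + 1)} (hkl : k ≤ l) {c : Crd n} (he : Even (v l c)) :
    v k c = v l c := by
  rcases Int.even_or_odd (v k c) with hk | hk
  · by_contra hne
    induction l using Fin.induction with
    | zero =>
      have : k = 0 := le_antisymm hkl (Fin.zero_le k)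
      exact hne (by rw [this])
    | succ m ih =>
      rcases eq_or_lt_of_le hkl with heq | hlt
      · exact hne (by rw [heq])
      · have hm : k ≤ m.castSucc := Fin.le_castSucc_iff.2 hlt
        by_cases hc : v m.succ c = v m.castSucc c
        · exact ih hm (hc ▸ he) (hc ▸ hne)
        · have e := moved_unique h m hc
          have := odd_of_step (moved_spec h m).1 (moved_spec h m).2.1
          rw [← e] at this
          exact (Int.not_even_iff_odd.2 this) he
  · exact (stay h hkl hk).symm

lemma moved_odd (h : IsFlag K v) (k : Fin (dd n)) {l : Fin (dd n + 1)} (hl : k.succ ≤ l) :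
    Odd (v l (moved h k)) := by
  have := odd_of_step (moved_spec h k).1 (moved_spec h k).2.1
  rwa [stay h hl this]

lemma moved_inj (h : IsFlag K v) : Function.Injective (moved h) := by
  intro a b hab
  by_contra hne
  rcases lt_or_gt_of_ne hne with hlt | hlt
  · have := moved_odd h a (l := b.castSucc) (Fin.succ_le_castSucc_iff.2 hlt)
    rw [hab] at this
    exact (Int.not_even_iff_odd.2 this) (moved_spec h b).1
  · have := moved_odd h b (l := a.castSucc) (Fin.succ_le_castSucc_iff.2 hlt)
    rw [← hab] at this
    exact (Int.not_even_iff_odd.2 this) (moved_spec h a).1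

/-- an extreme coordinate of the top cell of a row -/
noncomputable def ext (h : IsFlag K v) (i : Fin n) : Fin n := ((h.1 (Fin.last (dd n))).2 i).choose

lemma ext_le (h : IsFlag K v) (i : Fin n) : ext h i ≤ i :=
  ((h.1 (Fin.last (dd n))).2 i).choose_spec.1

lemma ext_val (h : IsFlag K v) (i : Fin n) : v (Fin.last (dd n)) (Sum.inl (i, ext h i)) = mm K := by
  rcases ((h.1 (Fin.last (dd n))).2 i).choose_spec.2 with e | e
  · exact e
  · exact absurd e (h.2.2.2 _ _)

/-- an equation as a coordinate outside the extreme ones -/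
def toCrd (e : Fin n → Fin n) : Slot n → Crd n
  | Sum.inl p => if p.1.2 = e p.1.1 then Sum.inl (p.1.1, p.1.1) else Sum.inl p.1
  | Sum.inr q => Sum.inr q

lemma toCrd_inj (e : Fin n → Fin n) : Function.Injective (toCrd e) := by
  rintro (⟨⟨i, j⟩, hj⟩ | q) (⟨⟨i', j'⟩, hj'⟩ | q') hab <;> simp only [toCrd] at hab
  · split_ifs at hab with h1 h2 h2 <;>
      simp only [Sum.inl.injEq, Prod.mk.injEq] at hab
    · obtain ⟨rfl, -⟩ := hab
      simp [h1, h2]
    · obtain ⟨rfl, hb⟩ := hab
      exact absurd hj' (by simp [hb])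
    · obtain ⟨rfl, hb⟩ := hab
      exact absurd hj (by simp [hb])
    · simp [hab.1, hab.2]
  · split_ifs at hab
  · split_ifs at hab
  · simpa using hab

/-- in the top cell everything is odd except one extreme coordinate per row -/
lemma odd_last_iff (h : IsFlag K v) (c : Crd n) :
    Odd (v (Fin.last (dd n)) c) ↔ ∃ s, toCrd (ext h) s = c := by
  classical
  have hsub : ∀ k, ∃ s, toCrd (ext h) s = moved h k := by
    intro k
    have ho := moved_odd h k (l := Fin.last (dd n)) (Fin.le_last _)
    rcases hm : moved h k with p | q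
    · obtain ⟨i, j⟩ := p
      rw [hm] at ho
      have hne : j ≠ ext h i := by
        intro hj
        rw [hj, ext_val h i] at ho
        exact (Int.not_even_iff_odd.2 ho) (even_mm K)
      have hle : j ≤ i := by
        by_contra hlt
        have := (h.1 (Fin.last (dd n))).1 (Sum.inl (i, j))
        simp only [lo, hi, not_le.1 hlt, ite_true] at this
        exact (Int.not_even_iff_odd.2 ho) (by
          rw [show v (Fin.last (dd n)) (Sum.inl (i, j)) = 0 by omega]; exact Even.zero)
      rcases eq_or_lt_of_le hle with he | hlt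
      · refine ⟨Sum.inl ⟨(i, ext h i), lt_of_le_of_ne (ext_le h i) (fun e => hne (he.trans e.symm))⟩, ?_⟩
        simp [toCrd, he]
      · exact ⟨Sum.inl ⟨(i, j), hlt⟩, by simp [toCrd, hne]⟩
    · exact ⟨Sum.inr q, rfl⟩
  have himg : (univ : Finset (Fin (dd n))).image (moved h) = (univ : Finset (Slot n)).image (toCrd (ext h)) := by
    apply Finset.eq_of_subset_of_card_le
    · intro c hc
      obtain ⟨k, -, rfl⟩ := Finset.mem_image.1 hc
      obtain ⟨s, hs⟩ := hsub k
      exact Finset.mem_image.2 ⟨s, Finset.mem_univ _, hs⟩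
    · rw [Finset.card_image_of_injective _ (toCrd_inj _), Finset.card_image_of_injective _ (moved_inj h)]
      simp only [Finset.card_univ, Fintype.card_fin]
      exact le_rfl
  constructor
  · intro ho
    by_cases hm : ∃ k, moved h k = c
    · obtain ⟨k, rfl⟩ := hm
      exact hsub k
    · exfalso
      have key : ∀ l, v l c = v 0 c := by
        intro l
        induction l using Fin.induction with
        | zero => rfl
        | succ m ih => rw [(moved_spec h m).2.2 c (fun e => hm ⟨m, e.symm⟩), ih]
      rw [key] at ho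
      exact (Int.not_even_iff_odd.2 ho) (h.2.1 c)
  · rintro ⟨s, rfl⟩
    have : toCrd (ext h) s ∈ (univ : Finset (Fin (dd n))).image (moved h) := by
      rw [himg]; exact Finset.mem_image_of_mem _ (Finset.mem_univ s)
    obtain ⟨k, -, hk⟩ := Finset.mem_image.1 this
    rw [← hk]
    exact moved_odd h k (Fin.le_last _)

/-- only one coordinate of a row is extreme in the top cell -/
lemma ext_unique (h : IsFlag K v) {i j : Fin n} (hj : j ≤ i)
    (he : Even (v (Fin.last (dd n)) (Sum.inl (i, j)))) : j = ext h i := by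
  by_contra hne
  refine (Int.not_odd_iff_even.2 he) ((odd_last_iff h _).2 ?_)
  rcases eq_or_lt_of_le hj with e | hlt
  · exact ⟨Sum.inl ⟨(i, ext h i), lt_of_le_of_ne (ext_le h i) (fun e' => hne (e.trans e'.symm))⟩, by
      simp [toCrd, e]⟩
  · exact ⟨Sum.inl ⟨(i, j), hlt⟩, by simp [toCrd, hne]⟩

lemma odd_last_inr (h : IsFlag K v) (q : Fin n) : Odd (v (Fin.last (dd n)) (Sum.inr q)) :=
  (odd_last_iff h _).2 ⟨Sum.inr q, rfl⟩

end Vale.Agent.P371.Lift.Sign
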