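import Vale.Agent.P371.Lift.Sign.Parity
/-
P371 lifting, sign lemma, part 4: the model pattern `O_ij ~ a_ij a_jj`, `g_q ~ 1/2 - q` has exactly one flag.
-/
namespace Vale.Agent.P371.Lift.Sign

open Finset

variable {n : ℕ}

/-- sign bit -/
def sbit (z : ℤ) : ZMod 2 := if z < 0 then 1 else 0

lemma sbit_neg {z : ℤ} (hz : z ≠ 0) : sbit (-z) = sbit z + 1 := by
  unfold sbit
  rcases lt_or_gt_of_ne hz with h | h
  · rw [if_neg (by omega : ¬ -z < 0), if_pos h]; exact (CharTwo.add_self_eq_zero _).symm
  · rw [if_pos (by omega : -z < 0), if_neg (by omega : ¬ z < 0)]; simp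

/-- the sign of a row: the diagonal entry decides, then the first non-zero entry -/
def tau (i : Fin n) (v : Pt n) : ZMod 2 :=
  if v (Sum.inl (i, i)) ≠ 0 then sbit (v (Sum.inl (i, i)))
  else if h : (univ.filter fun j => v (Sum.inl (i, j)) ≠ 0).Nonempty then
    sbit (v (Sum.inl (i, (univ.filter fun j => v (Sum.inl (i, j)) ≠ 0).min' h)))
  else 0

/-- sign of one entry, ties broken by the row -/
def bit (i j : Fin n) (v : Pt n) : ZMod 2 :=
  if v (Sum.inl (i, j)) = 0 then tau i v else sbit (v (Sum.inl (i, j)))

/-- the model pattern -/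
def model (K : ℕ) : Slot n → Pt n → ZMod 2
  | Sum.inl p, v => bit p.1.1 p.1.2 v + tau p.1.2 v
  | Sum.inr q, v => if mm K < v (Sum.inr q) then 1 else 0

lemma tau_congr {i : Fin n} {v w : Pt n} (h : ∀ j, w (Sum.inl (i, j)) = v (Sum.inl (i, j))) :
    tau i w = tau i v := by
  simp only [tau, h]

lemma bit_congr {i j : Fin n} {v w : Pt n} (h : ∀ j, w (Sum.inl (i, j)) = v (Sum.inl (i, j))) :
    bit i j w = bit i j v := by
  simp only [bit, h, tau_congr h]

lemma tau_flip {K : ℕ} (i r : Fin n) {v : Pt n} (hv : IsPt K v) :
    tau i (flipP r v) = tau i v + (if r = i then 1 else 0) := by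
  by_cases hr : r = i
  · subst hr
    obtain ⟨j₀, -, hj₀⟩ := hv.2 r
    have hne : v (Sum.inl (r, j₀)) ≠ 0 := by have := two_le_mm K; omega
    have hflip : ∀ j, flipP r v (Sum.inl (r, j)) = -v (Sum.inl (r, j)) := fun j => by simp [flipP]
    have hnon : (univ.filter fun j => v (Sum.inl (r, j)) ≠ 0).Nonempty := ⟨j₀, by simp [hne]⟩
    simp only [tau, hflip, neg_ne_zero, if_true]
    by_cases hd : v (Sum.inl (r, r)) ≠ 0
    · rw [if_pos hd, if_pos hd, sbit_neg hd]
    · rw [if_neg hd, if_neg hd, dif_pos hnon, dif_pos hnon, sbit_neg]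
      exact (Finset.mem_filter.1 (Finset.min'_mem _ hnon)).2
  · rw [if_neg hr, add_zero]
    exact tau_congr fun j => by simp [flipP, Ne.symm hr]

lemma bit_flip {K : ℕ} (i j r : Fin n) {v : Pt n} (hv : IsPt K v) :
    bit i j (flipP r v) = bit i j v + (if r = i then 1 else 0) := by
  by_cases hr : r = i
  · subst hr
    simp only [bit, tau_flip r r hv, if_true, flipP, neg_eq_zero]
    by_cases h0 : v (Sum.inl (r, j)) = 0
    · simp [h0]
    · rw [if_neg h0, if_neg h0, sbit_neg h0]
  · rw [if_neg hr, add_zero]
    exact bit_congr fun j => by simp [flipP, Ne.symm hr]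

lemma adm_model (K : ℕ) : Adm K (model (n := n) K) := by
  have h2 := two_le_mm K
  refine ⟨fun s i v hv => ?_, fun q v _ e => ?_, fun q v _ e => ?_⟩
  · rcases s with ⟨⟨a, b⟩, hab⟩ | q
    · simp only [model, chi, bit_flip a b i hv, tau_flip b i hv]
      have hne : a ≠ b := (ne_of_lt hab).symm
      by_cases h1 : i = a
      · subst h1; simp [hne]; ring
      · by_cases h3 : i = b
        · subst h3; simp [h1]; ring
        · simp [h1, h3]
    · simp only [model, chi, add_zero]
      rfl
  · simp only [model, e, if_neg (by omega : ¬ mm K < 0)]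
  · simp only [model, e, if_pos (by omega : mm K < 2 * mm K)]

/-- the only flag of the model -/
noncomputable def one (K : ℕ) (k : Fin (dd n + 1)) : Pt n
  | Sum.inl p =>
      if h : p.2 < p.1 then
        (if (((slot n).symm (Sum.inl ⟨p, h⟩) : Fin (dd n)) : ℕ) < k then -1 else 0)
      else if p.1 = p.2 then mm K else 0
  | Sum.inr q => if (((slot n).symm (Sum.inr q) : Fin (dd n)) : ℕ) < k then mm K + 1 else mm K

lemma one_isPt (K : ℕ) (k : Fin (dd n + 1)) : IsPt K (one (n := n) K k) := by
  have h2 := two_le_mm K
  refine ⟨fun c => ?_, fun i => ⟨i, le_rfl, Or.inl (by simp [one])⟩⟩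
  rcases c with ⟨i, j⟩ | q
  · simp only [one, lo, hi]
    by_cases h : j < i
    · rw [dif_pos h, if_neg (not_lt.2 h.le), if_neg (not_lt.2 h.le)]
      split_ifs <;> omega
    · rw [dif_neg h]
      by_cases he : i = j
      · subst he; simp; omega
      · have : i < j := lt_of_le_of_ne (not_lt.1 h) he
        simp [he, this]
  · simp only [one, lo, hi]
    split_ifs <;> omega

lemma one_off (K : ℕ) (k : Fin (dd n)) (c : Crd n) (hc : c ≠ (match slot n k with
      | Sum.inl p => Sum.inl p.1
      | Sum.inr q => Sum.inr q)) :
    one K k.succ c = one K k.castSucc c := by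
  have key : ∀ s : Slot n, s ≠ slot n k →
      ((((slot n).symm s : Fin (dd n)) : ℕ) < (k.succ : ℕ) ↔
        (((slot n).symm s : Fin (dd n)) : ℕ) < (k.castSucc : ℕ)) := fun s hs => by
    have : (slot n).symm s ≠ k := fun e => hs (by rw [← e]; simp)
    rw [ne_eq, Fin.ext_iff] at this
    simp only [Fin.val_succ, Fin.val_castSucc]
    omega
  rcases c with ⟨i, j⟩ | q
  · simp only [one]
    by_cases h : j < i
    · rw [dif_pos h, dif_pos h]
      have := key (Sum.inl ⟨(i, j), h⟩) (fun e => hc (by rw [← e]))
      simp only [this]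
    · rw [dif_neg h, dif_neg h]
  · simp only [one]
    have := key (Sum.inr q) (fun e => hc (by rw [← e]))
    simp only [this]

lemma one_step (K : ℕ) (k : Fin (dd n)) :
    Step (one (n := n) K k.castSucc) (one K k.succ) ∧
      model K (slot n k) (one K k.castSucc) + model K (slot n k) (one K k.succ) = 1 := by
  have h2 := two_le_mm K
  have off := one_off (n := n) K k
  have ks : (slot n).symm (slot n k) = k := Equiv.symm_apply_apply _ _
  rcases hs : slot n k with ⟨⟨i, j⟩, hij⟩ | q <;> rw [hs] at off ks <;> simp only at off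
  · have a0 : one K k.castSucc (Sum.inl (i, j)) = 0 := by
      simp [one, dif_pos hij, ks]
    have a1 : one K k.succ (Sum.inl (i, j)) = -1 := by
      simp [one, dif_pos hij, ks]
    refine ⟨⟨Sum.inl (i, j), by rw [a0]; exact Even.zero, by omega, off⟩, ?_⟩
    have td : ∀ (r : Fin n) (l : Fin (dd n + 1)), tau r (one K l) = 0 := fun r l => by
      have : one K l (Sum.inl (r, r)) = mm K := by simp [one]
      simp [tau, this, sbit, show mm K ≠ 0 by omega, show ¬ mm K < 0 by omega]
    simp [model, bit, a0, a1, td, sbit]
  · have a0 : one K k.castSucc (Sum.inr q) = mm K := by simp [one, ks]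
    have a1 : one K k.succ (Sum.inr q) = mm K + 1 := by simp [one, ks]
    refine ⟨⟨Sum.inr q, by rw [a0]; exact even_mm K, by omega, off⟩, ?_⟩
    simp [model, a0, a1]

lemma one_flag (K : ℕ) : IsFlag K (one (n := n) K) := by
  have h2 := two_le_mm K
  refine ⟨one_isPt K, fun c => ?_, fun k => (one_step K k).1, fun i j => ?_⟩
  · rcases c with ⟨i, j⟩ | q
    · simp only [one, Fin.val_zero, Nat.not_lt_zero, if_false]
      split_ifs
      · exact Even.zero
      · exact even_mm K
      · exact Even.zero
    · simpa [one] using even_mm K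
  · simp only [one]
    split_ifs <;> omega

/-- the row of an equation -/
def rowOf : Slot n → Option (Fin n)
  | Sum.inl p => some p.1.1
  | Sum.inr _ => none

/-- the row of a coordinate -/
def crdRow : Crd n → Option (Fin n)
  | Sum.inl p => some p.1
  | Sum.inr _ => none

lemma crdRow_toCrd (e : Fin n → Fin n) (s : Slot n) : crdRow (toCrd e s) = rowOf s := by
  rcases s with p | q
  · simp only [toCrd]; split_ifs <;> rfl
  · rfl

/-- any flag on which all equations of the model change sign is `one` -/
lemma eq_one {K : ℕ} {v : Fin (dd n + 1) → Pt n} (h : IsFlag K v)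
    (hx : ∀ k : Fin (dd n), model K (slot n k) (v k.castSucc) ≠ model K (slot n k) (v k.succ)) :
    v = one K := by
  classical
  have h2 := two_le_mm K
  -- the cube coordinates
  have hq : ∀ q, v ((slot n).symm (Sum.inr q)).castSucc (Sum.inr q) = mm K ∧
      v ((slot n).symm (Sum.inr q)).succ (Sum.inr q) = mm K + 1 := by
    intro q
    set k := (slot n).symm (Sum.inr q) with hk
    have hs : slot n k = Sum.inr q := by simp [hk]
    have hd := hx k
    rw [hs] at hd
    simp only [model] at hd
    have hc : (Sum.inr q : Crd n) = moved h k := moved_unique h k fun e => hd (by rw [e])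
    obtain ⟨he, hst, -⟩ := moved_spec h k
    rw [← hc] at he hst
    obtain ⟨a, ha⟩ := he
    obtain ⟨b, hb⟩ := even_mm K
    split_ifs at hd with c1 c2 c2
    · exact absurd rfl hd
    · omega
    · omega
    · exact absurd rfl hd
  -- each equation of row `i` moves a coordinate of row `i`
  have hpre : ∀ k, ∃ s, toCrd (ext h) s = moved h k := fun k =>
    (odd_last_iff h _).1 (moved_odd h k (Fin.le_last _))
  choose F hF using hpre
  set G : Slot n → Slot n := fun s => F ((slot n).symm s) with hG
  have Ginj : Function.Injective G := fun a b e => by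
    have e' : moved h ((slot n).symm a) = moved h ((slot n).symm b) := by
      rw [← hF, ← hF]; exact congrArg _ e
    exact (slot n).symm.injective (moved_inj h e')
  have rows : ∀ m : ℕ, ∀ s : Slot n, ∀ i : Fin n, (i : ℕ) = m → rowOf s = some i →
      rowOf (G s) = some i := by
    intro m
    induction m using Nat.strong_induction_on with
    | _ m ih =>
      intro s i hi hs
      rcases s with ⟨⟨i', j⟩, hij⟩ | q
      swap
      · simp [rowOf] at hs
      simp only [rowOf, Option.some.injEq] at hs
      subst hs
      set k := (slot n).symm (Sum.inl ⟨(i', j), hij⟩) with hk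
      have hsl : slot n k = Sum.inl ⟨(i', j), hij⟩ := by simp [hk]
      have hd := hx k
      rw [hsl] at hd
      simp only [model] at hd
      have hrow : crdRow (moved h k) = some i' ∨ crdRow (moved h k) = some j := by
        by_contra hno
        simp only [not_or] at hno
        refine hd ?_
        have same : ∀ r, (r = i' ∨ r = j) → ∀ l, v k.castSucc (Sum.inl (r, l)) = v k.succ (Sum.inl (r, l)) :=
          fun r hr l => ((moved_spec h k).2.2 _ fun e => by
            rcases hr with rfl | rfl
            · exact hno.1 (by rw [← e]; rfl)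
            · exact hno.2 (by rw [← e]; rfl)).symm
        rw [bit_congr (same i' (Or.inl rfl)), tau_congr (same j (Or.inr rfl))]
      have hGrow : rowOf (G (Sum.inl ⟨(i', j), hij⟩)) = crdRow (moved h k) := by
        rw [← hF k, crdRow_toCrd]
      rcases hrow with e | e
      · rw [hGrow, e]
      · exfalso
        set T : Finset (Slot n) := univ.filter fun t => rowOf t = some j with hT
        have hmap : T.image G ⊆ T := by
          intro t ht
          obtain ⟨t', ht', rfl⟩ := Finset.mem_image.1 ht
          simp only [hT, Finset.mem_filter, Finset.mem_univ, true_and] at ht' ⊢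
          have hjlt : (j : ℕ) < m := by simp only [Fin.lt_def] at hij; omega
          exact ih j hjlt t' j rfl ht'
        have himg : T.image G = T := Finset.eq_of_subset_of_card_le hmap
          (by rw [Finset.card_image_of_injective _ Ginj])
        have hmem : G (Sum.inl ⟨(i', j), hij⟩) ∈ T := by simp [hT, hGrow, e]
        rw [← himg] at hmem
        obtain ⟨t, ht, htG⟩ := Finset.mem_image.1 hmem
        rw [Ginj htG] at ht
        rw [hT] at ht
        have h3 := (Finset.mem_filter.1 ht).2
        simp only [rowOf, Option.some.injEq] at h3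
        exact hij.ne' h3
  -- entries below the diagonal start at zero
  have zero : ∀ i j (hij : j < i),
      v ((slot n).symm (Sum.inl ⟨(i, j), hij⟩)).castSucc (Sum.inl (i, j)) = 0 ∧
      (bit i j (v ((slot n).symm (Sum.inl ⟨(i, j), hij⟩)).castSucc) ≠
        bit i j (v ((slot n).symm (Sum.inl ⟨(i, j), hij⟩)).succ)) := by
    intro i j hij
    set k := (slot n).symm (Sum.inl ⟨(i, j), hij⟩) with hk
    have hsl : slot n k = Sum.inl ⟨(i, j), hij⟩ := by simp [hk]
    have hrow : crdRow (moved h k) = some i := by
      rw [← hF k, crdRow_toCrd]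
      exact rows i (Sum.inl ⟨(i, j), hij⟩) i rfl rfl
    have hd := hx k
    rw [hsl] at hd
    simp only [model] at hd
    have hj : ∀ l, v k.castSucc (Sum.inl (j, l)) = v k.succ (Sum.inl (j, l)) := fun l =>
      ((moved_spec h k).2.2 _ fun e => by
        rw [← e] at hrow
        simp [crdRow] at hrow
        omega).symm
    have hb : bit i j (v k.castSucc) ≠ bit i j (v k.succ) := fun e => hd (by rw [e, tau_congr hj])
    refine ⟨?_, hb⟩
    by_contra h0
    by_cases hc : (Sum.inl (i, j) : Crd n) = moved h k
    · obtain ⟨he, hst, -⟩ := moved_spec h k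
      rw [← hc] at he hst
      obtain ⟨a, ha⟩ := he
      refine hb ?_
      simp only [bit, if_neg h0, if_neg (by omega : v k.succ (Sum.inl (i, j)) ≠ 0), sbit]
      split_ifs <;> first | rfl | omega
    · have e := (moved_spec h k).2.2 _ hc
      refine hb ?_
      simp only [bit, e, if_neg h0]
  -- the diagonal stays at the extreme value
  have diag : ∀ i l, v l (Sum.inl (i, i)) = mm K := by
    intro i
    have hext : ext h i = i := by
      by_contra hne
      have hlt : ext h i < i := lt_of_le_of_ne (ext_le h i) hne
      have hev : Even (v (Fin.last (dd n)) (Sum.inl (i, ext h i))) := by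
        rw [ext_val h i]; exact even_mm K
      have := back h (Fin.le_last ((slot n).symm (Sum.inl ⟨(i, ext h i), hlt⟩)).castSucc) hev
      rw [(zero i _ hlt).1, ext_val h i] at this
      omega
    intro l
    have hlast := ext_val h i
    rw [hext] at hlast
    rw [back h (Fin.le_last l) (hlast ▸ even_mm K), hlast]
  have tau0 : ∀ i l, tau i (v l) = 0 := fun i l => by
    simp [tau, diag, sbit, show mm K ≠ 0 by omega, show ¬ mm K < 0 by omega]
  have own : ∀ i j (hij : j < i),
      v ((slot n).symm (Sum.inl ⟨(i, j), hij⟩)).succ (Sum.inl (i, j)) = -1 := by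
    intro i j hij
    obtain ⟨h0, hb⟩ := zero i j hij
    set k := (slot n).symm (Sum.inl ⟨(i, j), hij⟩) with hk
    have hne : v k.succ (Sum.inl (i, j)) ≠ 0 := fun e => hb (by simp [bit, h0, e, tau0])
    have hneg : v k.succ (Sum.inl (i, j)) < 0 := by
      by_contra hnn
      exact hb (by simp [bit, h0, hne, tau0, sbit, hnn])
    have hc := moved_unique h k (c := Sum.inl (i, j)) (by rw [h0]; exact hne)
    have hst := (moved_spec h k).2.1
    rw [← hc, h0] at hst
    omega
  -- conclusion
  funext l c
  rcases c with ⟨i, j⟩ | q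
  · simp only [one]
    by_cases hij : j < i
    · rw [dif_pos hij]
      obtain ⟨h0, -⟩ := zero i j hij
      have h1 := own i j hij
      set k := (slot n).symm (Sum.inl ⟨(i, j), hij⟩) with hk
      by_cases hl : (k : ℕ) < (l : ℕ)
      · rw [if_pos hl, stay h (k := k.succ) (Fin.le_def.2 (by simpa using hl))
          (by rw [h1]; exact odd_one.neg), h1]
      · rw [if_neg hl, back h (l := k.castSucc) (Fin.le_def.2 (by simpa using hl))
          (by rw [h0]; exact Even.zero), h0]
    · rw [dif_neg hij]
      by_cases he : i = j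
      · subst he; rw [if_pos rfl]; exact diag i l
      · rw [if_neg he]
        have hlt : i < j := lt_of_le_of_ne (not_lt.1 hij) he
        have := (h.1 l).1 (Sum.inl (i, j))
        simp only [lo, hi, hlt, ite_true] at this
        omega
  · simp only [one]
    obtain ⟨h0, h1⟩ := hq q
    set k := (slot n).symm (Sum.inr q) with hk
    by_cases hl : (k : ℕ) < (l : ℕ)
    · rw [if_pos hl, stay h (k := k.succ) (Fin.le_def.2 (by simpa using hl))
        (by rw [h1]; exact (even_mm K).add_one), h1]
    · rw [if_neg hl, back h (l := k.castSucc) (Fin.le_def.2 (by simpa using hl))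
        (by rw [h0]; exact even_mm K), h0]

theorem count_model (K : ℕ) : count (n := n) K (model K) = 1 := by
  classical
  rw [← count_eq_edges, Finset.sum_eq_single (one K)]
  · exact Finset.prod_eq_one fun k _ => (one_step K k).2
  · intro v hv hne
    obtain ⟨k, hk⟩ : ∃ k, model K (slot n k) (v k.castSucc) = model K (slot n k) (v k.succ) := by
      by_contra hno
      exact hne (eq_one (mem_flags.1 hv) (not_exists.1 hno))
    exact Finset.prod_eq_zero (Finset.mem_univ k) (by rw [hk]; exact CharTwo.add_self_eq_zero _)
  · exact fun hn => absurd (mem_flags.2 (one_flag K)) hn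

end Vale.Agent.P371.Lift.Sign
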