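import Vale.Agent.P371.Lift.Sign.Lattice
/-
P371 lifting, sign lemma, part 2: flags sharing all vertices but one come in pairs. For the top vertex the partner
may be a row-flipped flag (or the facet is on the boundary of the cube factor).
-/
namespace Vale.Agent.P371.Lift.Sign

open Finset

variable {n K : ℕ} {v : Fin (dd n + 1) → Pt n}

lemma castSucc_ne (k : Fin (dd n)) : k.succ ≠ k.castSucc := (Fin.castSucc_lt_succ (i := k)).ne'

/- the first vertex -/

lemma first_pair (h : IsFlag K v) (k : Fin (dd n)) (hk : (k : ℕ) = 0) :
    IsFlag K (Function.update v k.castSucc (fun c => 2 * v k.succ c - v k.castSucc c)) ∧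
      (fun c => 2 * v k.succ c - v k.castSucc c) ≠ v k.castSucc := by
  have h0 : k.castSucc = 0 := by ext; simp [hk]
  obtain ⟨he, hs, ho⟩ := moved_spec h k
  set c₀ := moved h k with hc₀
  set nv : Pt n := fun c => 2 * v k.succ c - v k.castSucc c with hnv
  have same : ∀ c, c ≠ c₀ → nv c = v k.castSucc c := fun c hc => by
    simp only [hnv]; rw [ho c hc]; ring
  have hodd : Odd (v k.succ c₀) := odd_of_step he hs
  have hpt : IsPt K nv := by
    refine ⟨fun c => ?_, fun i => ?_⟩
    · by_cases hc : c = c₀
      · have h1 := (h.1 k.succ).1 c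
        obtain ⟨l, hl⟩ := hodd
        obtain ⟨a, ha⟩ := even_lo (n := n) K c
        obtain ⟨b, hb⟩ := even_hi (n := n) K c
        subst hc
        simp only [hnv]
        omega
      · rw [same c hc]; exact (h.1 k.castSucc).1 c
    · obtain ⟨j, hj, hv⟩ := (h.1 k.succ).2 i
      refine ⟨j, hj, ?_⟩
      have hne : Sum.inl (i, j) ≠ c₀ := by
        intro e
        rw [← e] at hodd
        rcases hv with hv | hv <;> rw [hv] at hodd
        · exact (Int.not_even_iff_odd.2 hodd) (even_mm K)
        · exact (Int.not_even_iff_odd.2 hodd) (even_mm K).neg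
      rw [same _ hne, ← ho _ hne]
      exact hv
  refine ⟨⟨fun l => ?_, fun c => ?_, fun m => ?_, fun i j => ?_⟩, fun e => ?_⟩
  · by_cases hl : l = k.castSucc
    · subst hl; rw [Function.update_self]; exact hpt
    · rw [Function.update_of_ne hl]; exact h.1 l
  · rw [h0, Function.update_self]
    by_cases hc : c = c₀
    · subst hc
      obtain ⟨a, ha⟩ := he
      exact ⟨v k.succ c₀ - a, by simp only [hnv]; omega⟩
    · rw [same c hc, h0]; exact h.2.1 c
  · have hm : m.succ ≠ k.castSucc := by rw [h0]; exact Fin.succ_ne_zero m
    rw [Function.update_of_ne hm]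
    by_cases hmk : m = k
    · subst hmk
      rw [Function.update_self]
      refine ⟨c₀, ?_, ?_, fun c hc => by rw [same c hc]; exact ho c hc⟩
      · obtain ⟨a, ha⟩ := he
        exact ⟨v m.succ c₀ - a, by simp only [hnv]; omega⟩
      · simp only [hnv]; omega
    · rw [Function.update_of_ne (fun e => hmk (Fin.castSucc_injective _ e))]
      exact h.2.2.1 m
  · have hl : Fin.last (dd n) ≠ k.castSucc := (Fin.castSucc_lt_last k).ne'
    rw [Function.update_of_ne hl]; exact h.2.2.2 i j
  · have := congrFun e c₀
    simp only [hnv] at this
    omega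

/- an inner vertex -/

lemma inner_pair (h : IsFlag K v) (k k' : Fin (dd n)) (hk : k'.succ = k.castSucc) :
    IsFlag K (Function.update v k.castSucc
        (fun c => v k'.castSucc c + v k.succ c - v k.castSucc c)) ∧
      (fun c => v k'.castSucc c + v k.succ c - v k.castSucc c) ≠ v k.castSucc := by
  obtain ⟨he1, hs1, ho1⟩ := moved_spec h k'
  obtain ⟨he2, hs2, ho2⟩ := moved_spec h k
  rw [hk] at hs1 ho1
  set c₁ := moved h k' with hc₁
  set c₂ := moved h k with hc₂
  have hne : c₁ ≠ c₂ := fun e => by
    have := moved_inj h e
    subst this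
    exact castSucc_ne k' hk
  set nv : Pt n := fun c => v k'.castSucc c + v k.succ c - v k.castSucc c with hnv
  have eq1 : ∀ c, c ≠ c₁ → nv c = v k.succ c := fun c hc => by
    simp only [hnv]; rw [ho1 c hc]; ring
  have eq2 : ∀ c, c ≠ c₂ → nv c = v k'.castSucc c := fun c hc => by
    simp only [hnv]; rw [ho2 c hc]; ring
  have hpt : IsPt K nv := by
    refine ⟨fun c => ?_, fun i => ?_⟩
    · by_cases hc : c = c₁
      · rw [eq2 c (hc ▸ hne)]; exact (h.1 _).1 c
      · rw [eq1 c hc]; exact (h.1 _).1 c
    · obtain ⟨j, hj, hv⟩ := (h.1 k.succ).2 i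
      refine ⟨j, hj, ?_⟩
      have hev : Even (v k.succ (Sum.inl (i, j))) := by
        rcases hv with e | e <;> rw [e]
        · exact even_mm K
        · exact (even_mm K).neg
      have hne1 : Sum.inl (i, j) ≠ c₁ := by
        intro e
        have ho := odd_of_step he1 hs1
        rw [← e] at ho
        have hb := back h (Fin.castSucc_lt_succ (i := k)).le hev
        rw [hb] at ho
        exact (Int.not_even_iff_odd.2 ho) hev
      rw [eq1 _ hne1]; exact hv
  have hk0 : k.castSucc ≠ 0 := hk ▸ Fin.succ_ne_zero k'
  refine ⟨⟨fun l => ?_, fun c => ?_, fun m => ?_, fun i j => ?_⟩, fun e => ?_⟩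
  · by_cases hl : l = k.castSucc
    · subst hl; rw [Function.update_self]; exact hpt
    · rw [Function.update_of_ne hl]; exact h.1 l
  · rw [Function.update_of_ne hk0.symm]; exact h.2.1 c
  · by_cases hm1 : m = k'
    · subst hm1
      rw [hk, Function.update_self, Function.update_of_ne (fun e => castSucc_ne m (hk.trans e.symm))]
      refine ⟨c₂, ?_, ?_, fun c hc => eq2 c hc⟩
      · have := he2
        rwa [ho1 c₂ hne.symm] at this
      · rw [eq1 c₂ hne.symm, ← ho1 c₂ hne.symm]; exact hs2
    · by_cases hm2 : m = k
      · subst hm2
        rw [Function.update_self, Function.update_of_ne (castSucc_ne m)]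
        refine ⟨c₁, ?_, ?_, fun c hc => (eq1 c hc).symm⟩
        · rw [eq2 c₁ hne]; exact he1
        · rw [eq2 c₁ hne, ho2 c₁ hne]; exact hs1
      · rw [Function.update_of_ne (fun e => hm2 (Fin.castSucc_injective _ e)),
          Function.update_of_ne (fun e => hm1 (Fin.succ_injective _ (e.trans hk.symm)))]
        exact h.2.2.1 m
  · have hl : Fin.last (dd n) ≠ k.castSucc := (Fin.castSucc_lt_last k).ne'
    rw [Function.update_of_ne hl]; exact h.2.2.2 i j
  · have h1 := congrFun e c₁
    rw [eq2 c₁ hne] at h1
    rcases hs1 with e' | e' <;> omega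

/-- a sum which does not look at the vertex `j`, not the top one, vanishes mod 2 -/
theorem sum_lower (j : Fin (dd n + 1)) (hj : j ≠ Fin.last (dd n))
    (F : (Fin (dd n + 1) → Pt n) → ZMod 2) (hF : ∀ v x, F (Function.update v j x) = F v) :
    ∑ v ∈ flags n K, F v = 0 := by
  classical
  obtain ⟨k, rfl⟩ := Fin.exists_castSucc_eq.2 hj
  by_cases hk : (k : ℕ) = 0
  · refine Finset.sum_involution
      (fun v _ => Function.update v k.castSucc (fun c => 2 * v k.succ c - v k.castSucc c)) ?_ ?_ ?_ ?_
    · intro v _
      rw [hF]; exact CharTwo.add_self_eq_zero _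
    · intro v hv _ he
      have := congrFun he k.castSucc
      rw [Function.update_self] at this
      exact (first_pair (mem_flags.1 hv) k hk).2 this
    · intro v hv
      exact mem_flags.2 (first_pair (mem_flags.1 hv) k hk).1
    · intro v _
      simp [Function.update_of_ne (castSucc_ne k)]
  · obtain ⟨k', hk'⟩ := Fin.exists_succ_eq.2
      (show k.castSucc ≠ 0 from fun e => hk (by simpa [Fin.ext_iff] using e))
    have hne : k'.castSucc ≠ k.castSucc := hk' ▸ (castSucc_ne k').symm
    refine Finset.sum_involution
      (fun v _ => Function.update v k.castSucc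
        (fun c => v k'.castSucc c + v k.succ c - v k.castSucc c)) ?_ ?_ ?_ ?_
    · intro v _
      rw [hF]; exact CharTwo.add_self_eq_zero _
    · intro v hv _ he
      have := congrFun he k.castSucc
      rw [Function.update_self] at this
      exact (inner_pair (mem_flags.1 hv) k k' hk').2 this
    · intro v hv
      exact mem_flags.2 (inner_pair (mem_flags.1 hv) k k' hk').1
    · intro v _
      simp [Function.update_of_ne (castSucc_ne k), Function.update_of_ne hne]

/- the top vertex -/

/-- replace the top vertex -/
def setTop (v : Fin (dd n + 1) → Pt n) (x : Pt n) : Fin (dd n + 1) → Pt n :=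
  Function.update v (Fin.last (dd n)) x

/-- reflect the top vertex in the facet below it -/
def reflTop (k : Fin (dd n)) (v : Fin (dd n + 1) → Pt n) : Fin (dd n + 1) → Pt n :=
  setTop v (fun c => 2 * v k.castSucc c - v (Fin.last (dd n)) c)

/-- turn the corner: the old extreme coordinate `(i, j₀)` becomes free -/
def cornerTop (K : ℕ) (k : Fin (dd n)) (i j₀ : Fin n) (neg : Bool) (v : Fin (dd n + 1) → Pt n) :
    Fin (dd n + 1) → Pt n :=
  let w := setTop v (Function.update (v k.castSucc) (Sum.inl (i, j₀)) (mm K - 1))
  if neg then fun l => flipP i (w l) else w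

open scoped Classical in
/-- the partner of a flag across its top facet -/
noncomputable def gTop (K : ℕ) (k : Fin (dd n)) (v : Fin (dd n + 1) → Pt n) :
    Fin (dd n + 1) → Pt n :=
  if h : IsFlag K v then
    match moved h k with
    | Sum.inr q =>
        if v k.castSucc (Sum.inr q) = 0 ∨ v k.castSucc (Sum.inr q) = 2 * mm K then v else reflTop k v
    | Sum.inl p =>
        if v k.castSucc (Sum.inl p) = mm K ∨ v k.castSucc (Sum.inl p) = -mm K then
          cornerTop K k p.1 (ext h p.1) (decide (v k.castSucc (Sum.inl p) = -mm K)) v
        else reflTop k v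
  else v

/-- an interior facet: reflection -/
lemma refl_pair (h : IsFlag K v) (k : Fin (dd n)) (hk : k.succ = Fin.last (dd n))
    (hint : v k.castSucc (moved h k) ≠ lo K (moved h k) ∧ v k.castSucc (moved h k) ≠ hi K (moved h k)) :
    ∃ h' : IsFlag K (reflTop k v), moved h' k = moved h k ∧ reflTop k v ≠ v ∧
      reflTop k v k.castSucc = v k.castSucc := by
  obtain ⟨he, hs, ho⟩ := moved_spec h k
  rw [hk] at hs ho
  set c₀ := moved h k with hc₀
  set nv : Pt n := fun c => 2 * v k.castSucc c - v (Fin.last (dd n)) c with hnv
  have hkl : k.castSucc ≠ Fin.last (dd n) := (Fin.castSucc_lt_last k).ne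
  have same : ∀ c, c ≠ c₀ → nv c = v (Fin.last (dd n)) c := fun c hc => by
    simp only [hnv]; rw [ho c hc]; ring
  have hb := (h.1 k.castSucc).1 c₀
  have hodd : Odd (v (Fin.last (dd n)) c₀) := odd_of_step he hs
  have hpt : IsPt K nv := by
    refine ⟨fun c => ?_, fun i => ?_⟩
    · by_cases hc : c = c₀
      · subst hc
        simp only [hnv]
        omega
      · rw [same c hc]; exact (h.1 _).1 c
    · refine ⟨ext h i, ext_le h i, Or.inl ?_⟩
      rw [same _ (fun e => ?_), ext_val h i]
      rw [← e, ext_val h i] at hodd
      exact (Int.not_even_iff_odd.2 hodd) (even_mm K)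
  have hf : IsFlag K (reflTop k v) := by
    refine ⟨fun l => ?_, fun c => ?_, fun m => ?_, fun i j => ?_⟩
    · by_cases hl : l = Fin.last (dd n)
      · subst hl; simp only [reflTop, setTop, Function.update_self]; exact hpt
      · simp only [reflTop, setTop, Function.update_of_ne hl]; exact h.1 l
    · have : (0 : Fin (dd n + 1)) ≠ Fin.last (dd n) := fun e => by
        rw [← hk] at e; exact (Fin.succ_ne_zero k) e.symm
      simp only [reflTop, setTop, Function.update_of_ne this]; exact h.2.1 c
    · simp only [reflTop, setTop, Function.update_of_ne (Fin.castSucc_lt_last m).ne]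
      by_cases hm : m.succ = Fin.last (dd n)
      · have : m = k := Fin.succ_injective _ (hm.trans hk.symm)
        subst this
        rw [hm, Function.update_self]
        refine ⟨c₀, he, ?_, fun c hc => ?_⟩
        · simp only [hnv]; omega
        · change nv c = _
          rw [same c hc, ho c hc]
      · rw [Function.update_of_ne hm]; exact h.2.2.1 m
    · simp only [reflTop, setTop, Function.update_self]
      by_cases hc : Sum.inl (i, j) = c₀
      · have h2 : Odd (nv c₀) := by
          obtain ⟨a, ha⟩ := hodd
          exact ⟨v k.castSucc c₀ - a - 1, by simp only [hnv]; omega⟩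
        rw [hc]
        intro e
        change nv c₀ = _ at e
        rw [e] at h2
        exact (Int.not_even_iff_odd.2 h2) (even_mm K).neg
      · change nv _ ≠ _
        rw [same _ hc]; exact h.2.2.2 i j
  refine ⟨hf, (moved_unique hf k ?_).symm, fun e => ?_, ?_⟩
  · simp only [hk, reflTop, setTop, Function.update_self, Function.update_of_ne hkl]
    omega
  · have := congrFun (congrFun e (Fin.last (dd n))) c₀
    simp only [reflTop, setTop, Function.update_self] at this
    omega
  · simp only [reflTop, setTop, Function.update_of_ne hkl]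

/-- a corner: the partner is a flag with the two roles swapped -/
lemma corner_pair (h : IsFlag K v) (k : Fin (dd n)) (hk : k.succ = Fin.last (dd n)) (i j : Fin n)
    (hm : moved h k = Sum.inl (i, j)) (neg : Bool)
    (hval : v k.castSucc (Sum.inl (i, j)) = if neg then -mm K else mm K) :
    ∃ h' : IsFlag K (cornerTop K k i (ext h i) neg v),
      moved h' k = Sum.inl (i, ext h i) ∧ ext h' i = j ∧ cornerTop K k i (ext h i) neg v ≠ v ∧
      cornerTop K k i (ext h i) neg v k.castSucc (Sum.inl (i, ext h i)) = (if neg then -mm K else mm K) ∧
      cornerTop K k i j neg (cornerTop K k i (ext h i) neg v) = v := by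
  obtain ⟨he, hs, ho⟩ := moved_spec h k
  rw [hk] at hs ho
  rw [hm] at he hs ho
  set u : Pt n := v k.castSucc with hu
  set j₀ := ext h i with hj₀
  have h2 := two_le_mm K
  have hodd : Odd (v (Fin.last (dd n)) (Sum.inl (i, j))) := odd_of_step he hs
  have hjne : j ≠ j₀ := fun e => by
    rw [e, ext_val h i] at hodd
    exact (Int.not_even_iff_odd.2 hodd) (even_mm K)
  have hu0 : u (Sum.inl (i, j₀)) = mm K := by
    rw [← ho _ (by simp [hjne.symm]), ext_val h i]
  have hji : j ≤ i := by
    by_contra hlt
    have := (h.1 k.castSucc).1 (Sum.inl (i, j))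
    simp only [lo, hi, not_le.1 hlt, ite_true] at this
    rw [← hu] at this
    rw [hval] at this
    split_ifs at this <;> omega
  have hwj : v (Fin.last (dd n)) (Sum.inl (i, j)) = if neg then -mm K + 1 else mm K - 1 := by
    have := (h.1 (Fin.last (dd n))).1 (Sum.inl (i, j))
    simp only [lo, hi, not_lt.2 hji, ite_false] at this
    rw [hval] at hs
    cases neg <;> simp at hs ⊢ <;> omega
  set x : Pt n := Function.update u (Sum.inl (i, j₀)) (mm K - 1) with hx
  have hxpt : IsPt K x := by
    refine ⟨fun c => ?_, fun r => ?_⟩
    · by_cases hc : c = Sum.inl (i, j₀)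
      · subst hc
        have hle : ¬ i < j₀ := not_lt.2 (ext_le h i)
        simp only [hx, Function.update_self, lo, hi, hle, ite_false]
        omega
      · rw [hx, Function.update_of_ne hc]; exact (h.1 _).1 c
    · by_cases hr : r = i
      · subst hr
        refine ⟨j, hji, ?_⟩
        rw [hx, Function.update_of_ne (by simp [hjne]), hval]
        cases neg <;> simp
      · refine ⟨ext h r, ext_le h r, Or.inl ?_⟩
        rw [hx, Function.update_of_ne (by simp [hr]), ← ho _ (by simp [hr]), ext_val h r]
  have hkl : k.castSucc ≠ Fin.last (dd n) := (Fin.castSucc_lt_last k).ne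
  have hv0 : ∀ l, l ≠ Fin.last (dd n) →
      cornerTop K k i j₀ neg v l = if neg then flipP i (v l) else v l := fun l hl => by
    cases neg <;> simp [cornerTop, setTop, Function.update_of_ne hl]
  have hvl : cornerTop K k i j₀ neg v (Fin.last (dd n)) = if neg then flipP i x else x := by
    cases neg <;> simp [cornerTop, setTop, hx, hu]
  set w := cornerTop K k i j₀ neg v with hw
  have hwu : w k.castSucc (Sum.inl (i, j₀)) = if neg then -mm K else mm K := by
    rw [hv0 _ hkl]
    cases neg <;> simp [flipP, ← hu, hu0]
  have hwlj : w (Fin.last (dd n)) (Sum.inl (i, j)) = mm K := by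
    rw [hvl]
    cases neg <;> simp [flipP, hx, Function.update_of_ne (show Sum.inl (i, j) ≠ Sum.inl (i, j₀) by
      simp [hjne]), hval]
  have hwl0 : w (Fin.last (dd n)) (Sum.inl (i, j₀)) = if neg then -(mm K - 1) else mm K - 1 := by
    rw [hvl]
    cases neg <;> simp [flipP, hx]
  have hstep : ∀ c, c ≠ Sum.inl (i, j₀) → w (Fin.last (dd n)) c = w k.castSucc c := fun c hc => by
    rw [hvl, hv0 _ hkl]
    cases neg
    · simp [hx, Function.update_of_ne hc, hu]
    · rcases c with p | q
      · simp [flipP, hx, Function.update_of_ne hc, hu]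
      · simp [flipP, hx, Function.update_of_ne hc, hu]
  have hf : IsFlag K w := by
    refine ⟨fun l => ?_, fun c => ?_, fun m => ?_, fun r s => ?_⟩
    · by_cases hl : l = Fin.last (dd n)
      · subst hl; rw [hvl]; cases neg
        · exact hxpt
        · exact isPt_flipP i hxpt
      · rw [hv0 l hl]; cases neg
        · exact h.1 l
        · exact isPt_flipP i (h.1 l)
    · have h0 : (0 : Fin (dd n + 1)) ≠ Fin.last (dd n) := fun e => by
        rw [← hk] at e; exact (Fin.succ_ne_zero k) e.symm
      rw [hv0 0 h0]
      have := h.2.1 c
      cases neg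
      · exact this
      · rcases c with p | q
        · simp only [flipP, if_true]; split_ifs
          · exact this.neg
          · exact this
        · exact this
    · by_cases hm' : m.succ = Fin.last (dd n)
      · have : m = k := Fin.succ_injective _ (hm'.trans hk.symm)
        subst this
        rw [hm']
        refine ⟨Sum.inl (i, j₀), ?_, ?_, hstep⟩
        · rw [hwu]; cases neg
          · exact even_mm K
          · exact (even_mm K).neg
        · rw [hwu, hwl0]; cases neg <;> simp; left; ring
      · rw [hv0 _ (Fin.castSucc_lt_last m).ne, hv0 _ hm']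
        cases neg
        · exact h.2.2.1 m
        · exact step_flipP i (h.2.2.1 m)
    · by_cases hr : r = i
      · subst hr
        by_cases hs' : s = j
        · subst hs'; rw [hwlj]; omega
        by_cases hs0 : s = j₀
        · subst hs0; rw [hwl0]; cases neg <;> simp <;> omega
        rw [hstep _ (by simp [hs0]), hv0 _ hkl]
        have e : v k.castSucc (Sum.inl (r, s)) = v (Fin.last (dd n)) (Sum.inl (r, s)) :=
          (ho _ (by simp [hs'])).symm
        by_cases hsr : s ≤ r
        · have hns : ¬ Even (v (Fin.last (dd n)) (Sum.inl (r, s))) := fun ev => hs0 (ext_unique h hsr ev)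
          intro hcon
          apply hns
          rw [← e]
          cases neg
          · simp only [Bool.false_eq_true, if_false] at hcon
            rw [hcon]; exact (even_mm K).neg
          · simp only [flipP, if_true] at hcon
            rw [show v k.castSucc (Sum.inl (r, s)) = mm K by omega]; exact even_mm K
        · have := (h.1 k.castSucc).1 (Sum.inl (r, s))
          simp only [lo, hi, not_le.1 hsr, ite_true] at this
          cases neg <;> simp [flipP] <;> omega
      · have e : w (Fin.last (dd n)) (Sum.inl (r, s)) = v (Fin.last (dd n)) (Sum.inl (r, s)) := by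
          rw [hstep _ (by simp [hr]), hv0 _ hkl, ho _ (by simp [hr])]
          cases neg <;> simp [flipP, hr, hu]
        rw [e]; exact h.2.2.2 r s
  refine ⟨hf, (moved_unique hf k ?_).symm, (ext_unique hf hji ?_).symm, ?_, hwu, ?_⟩
  · rw [hk, hwu, hwl0]; cases neg <;> simp <;> omega
  · rw [hwlj]; exact even_mm K
  · intro e
    have := congrFun (congrFun e (Fin.last (dd n))) (Sum.inl (i, j))
    rw [hwlj, hwj] at this
    cases neg <;> simp at this <;> omega
  · funext l c
    by_cases hl : l = Fin.last (dd n)
    · subst hl
      have key : ∀ a : Pt n, (Function.update a (Sum.inl (i, j)) (mm K - 1)) c =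
          if c = Sum.inl (i, j) then mm K - 1 else a c := fun a => Function.update_apply _ _ _ _
      by_cases hc : c = Sum.inl (i, j)
      · subst hc
        rw [hwj]
        cases neg <;> simp [cornerTop, setTop, flipP] ; ring
      · rw [ho c hc]
        cases neg
        · simp [cornerTop, setTop, key, hc, hv0 _ hkl, hu]
        · rcases c with p | q
          · simp only [cornerTop, setTop, Function.update_self, if_true, flipP, key, hc, if_false, hv0 _ hkl,
              hu]
            split_ifs <;> simp
          · simp [cornerTop, setTop, key, hc, hv0 _ hkl, hu, flipP]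
    · cases neg
      · simp [cornerTop, setTop, Function.update_of_ne hl, hv0 l hl]
      · simp [cornerTop, setTop, Function.update_of_ne hl, hv0 l hl, flipP_flipP]

/-- a sum which does not look at the top vertex, is invariant under row flips and vanishes on the cube boundary,
is zero mod 2 -/
theorem sum_top (k : Fin (dd n)) (hk : k.succ = Fin.last (dd n))
    (F : (Fin (dd n + 1) → Pt n) → ZMod 2) (hF : ∀ v x, F (setTop v x) = F v)
    (hflip : ∀ v i, (∀ l, IsPt K (v l)) → F (fun l => flipP i (v l)) = F v)
    (hbd : ∀ v q, IsFlag K v →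
      (v k.castSucc (Sum.inr q) = 0 ∨ v k.castSucc (Sum.inr q) = 2 * mm K) → F v = 0) :
    ∑ v ∈ flags n K, F v = 0 := by
  classical
  have main : ∀ v, IsFlag K v → IsFlag K (gTop K k v) ∧ gTop K k (gTop K k v) = v ∧
      (gTop K k v = v → F v = 0) ∧ F v + F (gTop K k v) = 0 := by
    intro v h
    rcases hm : moved h k with p | q
    · obtain ⟨i, j⟩ := p
      by_cases hv : v k.castSucc (Sum.inl (i, j)) = mm K ∨ v k.castSucc (Sum.inl (i, j)) = -mm K
      · set neg := decide (v k.castSucc (Sum.inl (i, j)) = -mm K) with hneg
        have hval : v k.castSucc (Sum.inl (i, j)) = if neg then -mm K else mm K := by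
          rcases hv with e | e <;> rw [hneg, e]
          · have := two_le_mm K
            simp [show mm K ≠ -mm K by omega]
          · simp
        obtain ⟨h', hm', hext, hne, hwu, hinv⟩ := corner_pair h k hk i j hm neg hval
        have hg : gTop K k v = cornerTop K k i (ext h i) neg v := by
          simp [gTop, h, hm, hv, hneg]
        rw [hg]
        refine ⟨h', ?_, fun e => absurd e hne, ?_⟩
        · have hg' : gTop K k (cornerTop K k i (ext h i) neg v) =
              cornerTop K k i j neg (cornerTop K k i (ext h i) neg v) := by
            have h2 := two_le_mm K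
            simp only [gTop, dif_pos h', hm']
            simp only [hext, hwu]
            have h2' : mm K ≠ -mm K := by omega
            rcases Bool.eq_false_or_eq_true neg with e | e <;> simp [e, h2']
          rw [hg', hinv]
        · have : F (cornerTop K k i (ext h i) neg v) = F v := by
            rcases Bool.eq_false_or_eq_true neg with e | e
            · simp only [e, cornerTop, if_true]
              rw [hflip _ i, hF]
              intro l
              have hl := isPt_flipP i (h'.1 l)
              simpa [e, cornerTop, flipP_flipP] using hl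
            · simp [e, cornerTop, hF]
          rw [this]; exact CharTwo.add_self_eq_zero _
      · have hint : v k.castSucc (moved h k) ≠ lo K (moved h k) ∧
            v k.castSucc (moved h k) ≠ hi K (moved h k) := by
          rw [hm]
          have hji : ¬ i < j := fun hlt => by
            have hs := (moved_spec h k).2.1
            have h1 := (h.1 k.castSucc).1 (Sum.inl (i, j))
            have h2 := (h.1 k.succ).1 (Sum.inl (i, j))
            rw [hm] at hs
            simp only [lo, hi, hlt, ite_true] at h1 h2
            omega
          simp only [lo, hi, hji, ite_false]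
          exact ⟨fun e => hv (Or.inr e), fun e => hv (Or.inl e)⟩
        obtain ⟨h', hm', hne, hu⟩ := refl_pair h k hk hint
        have hg : gTop K k v = reflTop k v := by simp [gTop, h, hm, hv]
        rw [hg]
        refine ⟨h', ?_, fun e => absurd e hne, ?_⟩
        · simp only [gTop, dif_pos h', hm', hm, hu, if_neg hv]
          funext l c
          by_cases hl : l = Fin.last (dd n)
          · subst hl; simp [reflTop, setTop, (Fin.castSucc_lt_last k).ne]
          · simp [reflTop, setTop, Function.update_of_ne hl]
        · simp only [reflTop, hF]; exact CharTwo.add_self_eq_zero _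
    · by_cases hv : v k.castSucc (Sum.inr q) = 0 ∨ v k.castSucc (Sum.inr q) = 2 * mm K
      · have hg : gTop K k v = v := by simp [gTop, h, hm, hv]
        rw [hg, hg]
        exact ⟨h, rfl, fun _ => hbd v q h hv, CharTwo.add_self_eq_zero _⟩
      · have hint : v k.castSucc (moved h k) ≠ lo K (moved h k) ∧
            v k.castSucc (moved h k) ≠ hi K (moved h k) := by
          rw [hm]
          exact ⟨fun e => hv (Or.inl e), fun e => hv (Or.inr e)⟩
        obtain ⟨h', hm', hne, hu⟩ := refl_pair h k hk hint
        have hg : gTop K k v = reflTop k v := by simp [gTop, h, hm, hv]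
        rw [hg]
        refine ⟨h', ?_, fun e => absurd e hne, ?_⟩
        · simp only [gTop, dif_pos h', hm', hm, hu, if_neg hv]
          funext l c
          by_cases hl : l = Fin.last (dd n)
          · subst hl; simp [reflTop, setTop, (Fin.castSucc_lt_last k).ne]
          · simp [reflTop, setTop, Function.update_of_ne hl]
        · simp only [reflTop, hF]; exact CharTwo.add_self_eq_zero _
  refine Finset.sum_involution (fun v _ => gTop K k v) ?_ ?_ ?_ ?_
  · intro v hv; exact (main v (mem_flags.1 hv)).2.2.2
  · intro v hv hne he; exact hne ((main v (mem_flags.1 hv)).2.2.1 he)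
  · intro v hv; exact mem_flags.2 (main v (mem_flags.1 hv)).1
  · intro v hv; exact (main v (mem_flags.1 hv)).2.1

end Vale.Agent.P371.Lift.Sign
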