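import Vale.Agent.P371.Lift.Sign.Pairing
/-
P371 lifting, sign lemma, part 3: the mod 2 number of flags on which every equation changes sign does not depend
on the sign pattern.
-/
namespace Vale.Agent.P371.Lift.Sign

open Finset

variable {n : ℕ}

/-- an off-diagonal equation changes sign with either of its two rows -/
def chi : Slot n → Fin n → ZMod 2
  | Sum.inl p, i => if i = p.1.1 ∨ i = p.1.2 then 1 else 0
  | Sum.inr _, _ => 0

/-- admissible sign patterns -/
structure Adm (K : ℕ) (h : Slot n → Pt n → ZMod 2) : Prop where
  flip : ∀ s i v, IsPt K v → h s (flipP i v) = h s v + chi s i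
  bot : ∀ q v, IsPt K v → v (Sum.inr q) = 0 → h (Sum.inr q) v = 0
  top : ∀ q v, IsPt K v → v (Sum.inr q) = 2 * mm K → h (Sum.inr q) v = 1

/-- the number of flags, read at the lower ends of the steps -/
noncomputable def count (K : ℕ) (h : Slot n → Pt n → ZMod 2) : ZMod 2 :=
  ∑ v ∈ flags n K, ∏ k : Fin (dd n), h (slot n k) (v k.castSucc)

/-- expanding a product of two-vertex factors: monomials missing a lower vertex drop out -/
lemma expand (K : ℕ) (a b : Fin (dd n) → Fin (dd n + 1)) (A B : Fin (dd n) → Pt n → ZMod 2)
    (hc : ∀ S : Finset (Fin (dd n)), S.Nonempty → (∃ k ∈ S, ∀ x, B k x = 0) ∨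
      ∃ j, j ≠ Fin.last (dd n) ∧ (∀ k ∈ S, b k ≠ j) ∧ ∀ k, k ∉ S → a k ≠ j) :
    ∑ v ∈ flags n K, ∏ k, (A k (v (a k)) + B k (v (b k))) =
      ∑ v ∈ flags n K, ∏ k, A k (v (a k)) := by
  classical
  calc ∑ v ∈ flags n K, ∏ k, (A k (v (a k)) + B k (v (b k)))
      = ∑ v ∈ flags n K, ∑ S ∈ (univ : Finset (Fin (dd n))).powerset,
          (∏ k ∈ S, B k (v (b k))) * ∏ k ∈ univ \ S, A k (v (a k)) := by
        refine sum_congr rfl fun v _ => ?_
        rw [← Finset.prod_add]
        exact prod_congr rfl fun k _ => add_comm _ _
    _ = ∑ S ∈ (univ : Finset (Fin (dd n))).powerset, ∑ v ∈ flags n K,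
          (∏ k ∈ S, B k (v (b k))) * ∏ k ∈ univ \ S, A k (v (a k)) := sum_comm
    _ = ∑ v ∈ flags n K, ∏ k, A k (v (a k)) := by
        rw [sum_eq_single (∅ : Finset (Fin (dd n)))]
        · simp
        · intro S _ hS
          rcases hc S (nonempty_iff_ne_empty.2 hS) with ⟨k, hk, hz⟩ | ⟨j, hj, hb, ha⟩
          · refine sum_eq_zero fun v _ => ?_
            rw [prod_eq_zero hk (hz _), zero_mul]
          · refine sum_lower j hj _ fun v x => ?_
            congr 1
            · exact prod_congr rfl fun k hk => by rw [Function.update_of_ne (hb k hk)]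
            · refine prod_congr rfl fun k hk => ?_
              rw [Function.update_of_ne (ha k (by simpa using hk))]
        · simp

/-- the count is the number of flags on which every equation changes at its own step -/
lemma count_eq_edges (K : ℕ) (h : Slot n → Pt n → ZMod 2) :
    ∑ v ∈ flags n K, ∏ k : Fin (dd n), (h (slot n k) (v k.castSucc) + h (slot n k) (v k.succ)) =
      count K h := by
  refine expand K Fin.castSucc Fin.succ (fun k => h (slot n k)) (fun k => h (slot n k)) fun S hS => ?_
  refine Or.inr ⟨(S.min' hS).castSucc, (Fin.castSucc_lt_last _).ne, fun k hk e => ?_, fun k hk e => ?_⟩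
  · have := S.min'_le k hk
    rw [Fin.ext_iff] at e
    simp only [Fin.val_succ, Fin.val_castSucc] at e
    omega
  · exact hk (Fin.castSucc_injective _ e ▸ S.min'_mem hS)

/-- the upper end used on both sides of the slot `e` -/
def shiftIdx (e k : Fin (dd n)) : Fin (dd n + 1) :=
  ⟨if k < e then (k : ℕ) + 1 else (k : ℕ) - 1, by split_ifs <;> omega⟩

lemma shiftIdx_lt (e k : Fin (dd n)) : (shiftIdx e k : ℕ) < dd n := by
  simp only [shiftIdx]
  split_ifs with h <;> omega

/-- changing one sign pattern by an invariant one -/
lemma count_inv (K : ℕ) (e : Fin (dd n)) (h : Slot n → Pt n → ZMod 2) (hh : Adm K h)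
    (u : Pt n → ZMod 2) (huflip : ∀ i v, IsPt K v → u (flipP i v) = u v)
    (hubd : ∀ q v, IsPt K v → slot n e = Sum.inr q →
      (v (Sum.inr q) = 0 ∨ v (Sum.inr q) = 2 * mm K) → u v = 0) :
    ∑ v ∈ flags n K, ∏ k, (if k = e then u else h (slot n k)) (v k.castSucc) = 0 := by
  classical
  set A : Fin (dd n) → Pt n → ZMod 2 := fun k => if k = e then u else h (slot n k) with hA
  set B : Fin (dd n) → Pt n → ZMod 2 := fun k => if k = e then 0 else h (slot n k) with hB
  rw [← expand K Fin.castSucc (shiftIdx e) A B ?_]
  swap
  · intro S hS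
    by_cases he : e ∈ S
    · exact Or.inl ⟨e, he, fun x => by simp [hB]⟩
    refine Or.inr ?_
    by_cases hlow : ∃ k ∈ S, k < e
    · refine ⟨(S.min' hS).castSucc, (Fin.castSucc_lt_last _).ne, fun k hk he' => ?_, fun k hk he' => ?_⟩
      · have h1 := S.min'_le k hk
        obtain ⟨k₁, hk₁, hlt⟩ := hlow
        have h2 := S.min'_le k₁ hk₁
        have h3 : k ≠ e := fun ee => he (ee ▸ hk)
        simp only [shiftIdx, Fin.ext_iff, Fin.val_castSucc] at he'
        simp only [Fin.lt_def, Fin.le_def] at *
        split_ifs at he' <;> omega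
      · exact hk (Fin.castSucc_injective _ he' ▸ S.min'_mem hS)
    · push_neg at hlow
      refine ⟨(S.max' hS).castSucc, (Fin.castSucc_lt_last _).ne, fun k hk he' => ?_, fun k hk he' => ?_⟩
      · have h1 := S.le_max' k hk
        have h3 : k ≠ e := fun ee => he (ee ▸ hk)
        have h4 := hlow k hk
        simp only [shiftIdx, Fin.ext_iff, Fin.val_castSucc] at he'
        simp only [Fin.lt_def, Fin.le_def, ne_eq, Fin.ext_iff] at *
        split_ifs at he' <;> omega
      · exact hk (Fin.castSucc_injective _ he' ▸ S.max'_mem hS)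
  obtain ⟨kl, hkl⟩ : ∃ kl : Fin (dd n), kl.succ = Fin.last (dd n) :=
    Fin.exists_succ_eq.2 fun e0 => by
      have h0 := e.2
      simp [Fin.ext_iff] at e0
      omega
  refine sum_top kl hkl _ (fun v x => ?_) (fun v i hv => ?_) (fun v q hv hq => ?_)
  · refine prod_congr rfl fun k _ => ?_
    rw [setTop, Function.update_of_ne (Fin.castSucc_lt_last k).ne, Function.update_of_ne ?_]
    intro e0
    have := shiftIdx_lt e k
    rw [e0] at this
    simp at this
  · refine prod_congr rfl fun k _ => ?_
    by_cases hk : k = e
    · subst hk; simp [hA, hB, huflip i _ (hv _)]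
    · simp only [hA, hB, if_neg hk, hh.flip _ _ _ (hv _)]
      rw [add_add_add_comm, CharTwo.add_self_eq_zero, add_zero]
  · have hle : ∀ l : Fin (dd n + 1), (l : ℕ) < dd n → l ≤ kl.castSucc := fun l hl => by
      rw [Fin.ext_iff] at hkl
      simp only [Fin.val_succ, Fin.val_last] at hkl
      simp only [Fin.le_def, Fin.val_castSucc]
      omega
    have hev : Even (v kl.castSucc (Sum.inr q)) := by
      rcases hq with e0 | e0 <;> rw [e0]
      · exact Even.zero
      · exact even_two_mul _
    have hat : ∀ l : Fin (dd n + 1), (l : ℕ) < dd n → v l (Sum.inr q) = v kl.castSucc (Sum.inr q) :=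
      fun l hl => back hv (hle l hl) hev
    set k := (slot n).symm (Sum.inr q) with hk
    have hsk : slot n k = Sum.inr q := by simp [hk]
    refine prod_eq_zero (Finset.mem_univ k) ?_
    have hl1 := hat k.castSucc (by simp)
    have hl2 := hat (shiftIdx e k) (shiftIdx_lt e k)
    by_cases hke : k = e
    · rw [hke] at hsk hl1 ⊢
      simp only [hA, hB, if_true, Pi.zero_apply, add_zero]
      refine hubd q _ (hv.1 _) hsk ?_
      rw [hl1]; exact hq
    · simp only [hA, hB, if_neg hke, hsk]
      rcases hq with e0 | e0
      · rw [hh.bot q _ (hv.1 _) (hl1.trans e0), hh.bot q _ (hv.1 _) (hl2.trans e0)]; simp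
      · rw [hh.top q _ (hv.1 _) (hl1.trans e0), hh.top q _ (hv.1 _) (hl2.trans e0)]
        exact CharTwo.add_self_eq_zero _

lemma count_update (K : ℕ) (h : Slot n → Pt n → ZMod 2) (s : Slot n) (g : Pt n → ZMod 2)
    (hh : Adm K h) (hg : Adm K (Function.update h s g)) :
    count K (Function.update h s g) = count K h := by
  classical
  set e := (slot n).symm s with he
  have hse : slot n e = s := by simp [he]
  have hgs : ∀ i v, IsPt K v → g (flipP i v) = g v + chi s i := fun i v hv => by
    simpa using hg.flip s i v hv
  set u : Pt n → ZMod 2 := fun v => g v + h s v with hu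
  have key := count_inv K e h hh u (fun i v hv => by
      simp only [hu, hgs i v hv, hh.flip s i v hv]
      rw [add_add_add_comm, CharTwo.add_self_eq_zero, add_zero])
    (fun q v hv hq hb => by
      have hs : s = Sum.inr q := hse ▸ hq
      subst hs
      have g0 := hg.bot q v hv
      have g1 := hg.top q v hv
      simp only [Function.update_self] at g0 g1
      simp only [hu]
      rcases hb with b | b
      · rw [g0 b, hh.bot q v hv b]; simp
      · rw [g1 b, hh.top q v hv b]; exact CharTwo.add_self_eq_zero _)
  have split : ∀ (r : Fin (dd n) → Pt n → ZMod 2) (v : Fin (dd n + 1) → Pt n),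
      ∏ k, r k (v k.castSucc) = r e (v e.castSucc) * ∏ k ∈ univ.erase e, r k (v k.castSucc) :=
    fun r v => (Finset.mul_prod_erase univ (fun k => r k (v k.castSucc)) (mem_univ e)).symm
  have : count K (Function.update h s g) + count K h = 0 := by
    rw [count, count, ← sum_add_distrib, ← key]
    refine sum_congr rfl fun v _ => ?_
    rw [split (fun k => (Function.update h s g) (slot n k)) v, split (fun k => h (slot n k)) v,
      split (fun k => if k = e then u else h (slot n k)) v]
    have rest : ∀ k ∈ (univ : Finset (Fin (dd n))).erase e,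
        (Function.update h s g) (slot n k) (v k.castSucc) = h (slot n k) (v k.castSucc) := fun k hk => by
      rw [Function.update_of_ne]
      intro e0
      exact (Finset.ne_of_mem_erase hk) ((slot n).injective (e0.trans hse.symm))
    rw [prod_congr rfl rest]
    have rest2 : ∀ k ∈ (univ : Finset (Fin (dd n))).erase e,
        (if k = e then u else h (slot n k)) (v k.castSucc) = h (slot n k) (v k.castSucc) := fun k hk => by
      rw [if_neg (Finset.ne_of_mem_erase hk)]
    rw [prod_congr rfl rest2, hse, Function.update_self, if_pos rfl, ← add_mul]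
  exact CharTwo.add_eq_zero.1 this

/-- all admissible patterns have the same count -/
theorem count_const (K : ℕ) (h h' : Slot n → Pt n → ZMod 2) (hh : Adm K h) (hh' : Adm K h') :
    count K h = count K h' := by
  classical
  have mix : ∀ T : Finset (Slot n), Adm K (fun s => if s ∈ T then h' s else h s) := fun T =>
    ⟨fun s i v hv => by
      by_cases ht : s ∈ T
      · simpa [ht] using hh'.flip s i v hv
      · simpa [ht] using hh.flip s i v hv,
    fun q v hv e => by
      by_cases ht : (Sum.inr q : Slot n) ∈ T
      · simpa [ht] using hh'.bot q v hv e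
      · simpa [ht] using hh.bot q v hv e,
    fun q v hv e => by
      by_cases ht : (Sum.inr q : Slot n) ∈ T
      · simpa [ht] using hh'.top q v hv e
      · simpa [ht] using hh.top q v hv e⟩
  have main : ∀ T : Finset (Slot n), count K (fun s => if s ∈ T then h' s else h s) = count K h := by
    intro T
    induction T using Finset.induction_on with
    | empty => simp
    | insert s T hs ih =>
      have e : (fun r => if r ∈ insert s T then h' r else h r) =
          Function.update (fun r => if r ∈ T then h' r else h r) s (h' s) := by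
        funext r
        by_cases hr : r = s
        · subst hr; simp
        · simp [Function.update_of_ne hr, hr]
      rw [e, count_update K _ s (h' s) (mix T) (e ▸ mix (insert s T)), ih]
  simpa using (main univ).symm

end Vale.Agent.P371.Lift.Sign
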